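import Vale.Agent.P355.H693W.Fin
import Vale.Agent.P355.H129R.Res

/-! Final step of the injective route with an arbitrary proof of the residual bound (several
checks of parts). -/

namespace Vale.Agent.P355.H371

open Finset Matrix Vale.Agent.P355 Vale.Agent.P355.H129
open Vale.Agent.P355.H138 (Tr BrP RwP mon pw6 Base)
open Vale.Agent.P355.H387 (evL ev CT)
open Vale.Agent.P355.H693.Inj (riv Mt)
open Vale.Agent.P355.H693W (isOne isOne_spec oneL evL_oneL)

set_option linter.unusedSectionVars false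

variable {W : ℕ}

/-- **Positivity of a list of codes**; the residual bound `ε` is a hypothesis. -/
theorem lval_posR {x : Fin 7 → Fin 7 → ℂ} {tr : Tr} {ct : CT}
    {l : List (ℤ × Bool × ℤ)} {ids : List ℕ} {PT QT MT MT' M : ℕ}
    (hpk : pk W tr l ids = some ((PT, MT), (QT, MT')))
    {oT oS : List (ℕ × ℕ)} {vR : ℝ} (hT : BrP x W tr ct oT PT QT M)
    (hS : 0 ≤ evL (riv x) ct oS) (hR : vR = 0) {e E : ℕ}
    (hM : MT < 2 ^ W) (hM' : MT' < 2 ^ W) (hM'' : M < 2 ^ W)
    (h1 : isOne ct e = true) (he : Nat.land e 1208925819614629174706175 = e)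
    (hF : |evL (riv x) ct oT - (evL (riv x) ct oS + vR + evL (riv x) ct (oneL e))|
      ≤ 5 / 2 * E)
    (hμ : 5 * E < 2 * Nat.shiftRight e 19) : 0 < lval 3 x l := by
  obtain ⟨p, q, hp, hq, hpq⟩ := pk_sound (W := W) (K := 3) (x := x) l ids PT MT QT MT' hpk
  obtain ⟨p', q', hp', hq', hpq'⟩ := hT
  have e1 := hp.unique hp' hM hM''
  have e2 := hq.unique hq' hM' hM''
  rw [evL_oneL he, isOne_spec h1, hR] at hF
  have h5 : (5 : ℝ) * E < 2 * ((Nat.shiftRight e 19 : ℕ) : ℝ) := by exact_mod_cast hμ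
  have h6 := (abs_le.1 hF).1
  rw [← hpq', ← e1, ← e2, hpq] at h6
  by_contra hcon
  have h7 : lval 3 x l ≤ 0 := not_lt.1 hcon
  linarith

/-- **Inequality of the coloured level** by the injective route; `hF`: the bound of the residual
(for instance from several checks `ckRes`). -/
theorem VI_packedR {m N c : ℕ} {B : Fin m → M6} (hB : IsMUBs B) (hc : 3 ≤ c) {ctG : H693.GT}
    {L : List H693.VR} (hL : (L.all fun r => r.ok N c 3 (H693.tabG ctG) 6 0) = true)
    {l : List (ℤ × Bool × ℤ)} (hl : L.map H693.VR.term = l) {tr : Tr} {ct : CT}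
    {ids : List ℕ} {PT QT MT MT' M : ℕ}
    (hpk : pk W tr l ids = some ((PT, MT), (QT, MT')))
    {oT oS : List (ℕ × ℕ)} {vR : (Fin 7 → Fin 7 → ℂ) → ℝ}
    (hT : ∀ x, H138.Good false x → H182.N7x x → BrP x W tr ct oT PT QT M)
    (hS : ∀ x, H138.Good false x → H182.N7x x → 0 ≤ evL (riv x) ct oS)
    (hR : ∀ x, H138.Good false x → H182.N7x x → vR x = 0)
    {e E : ℕ} (hM : MT < 2 ^ W) (hM' : MT' < 2 ^ W) (hM'' : M < 2 ^ W)
    (h1 : isOne ct e = true) (he : Nat.land e 1208925819614629174706175 = e)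
    (hF : ∀ x, H138.Good false x → H182.N7x x →
      |evL (riv x) ct oT - (evL (riv x) ct oS + vR x + evL (riv x) ct (oneL e))| ≤ 5 / 2 * E)
    (hμ : 5 * E < 2 * Nat.shiftRight e 19) :
    0 ≤ H693.valT (H147.cv B N c) ctG (L.map H693.VR.ct) :=
  H693.V_T hB hc hL fun x hx hN => by
    rw [hl]
    exact (lval_posR hpk (hT x hx hN) (hS x hx hN) (hR x hx hN) hM hM' hM'' h1 he
      (hF x hx hN) hμ).le

/-- one checked part: the value of the list `A` is the value of `B` up to `5/2 * E`. -/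
theorem part {x : Fin 7 → Fin 7 → ℂ} (hx : Base x) {ct : CT} {A B out : List (ℕ × ℕ)} {E : ℕ}
    (h : H129R.ckRes ct A B out E = true) :
    |evL (riv x) ct A - evL (riv x) ct B| ≤ 5 / 2 * E :=
  H129R.ckRes_sound (F := riv x) (c := 5 / 2) (by norm_num)
    (fun b M => H693.Inj.abs_riv_le hx b M) h

/-- value of the sum of several lists. -/
noncomputable def vs (x : Fin 7 → Fin 7 → ℂ) (ct : CT) (Ls : List (List (ℕ × ℕ))) : ℝ :=
  (Ls.map fun A => evL (riv x) ct A).sum

theorem vs_nil (x : Fin 7 → Fin 7 → ℂ) (ct : CT) : vs x ct [] = 0 := rfl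

theorem vs_cons (x : Fin 7 → Fin 7 → ℂ) (ct : CT) (A : List (ℕ × ℕ)) (Ls : List (List (ℕ × ℕ))) :
    vs x ct (A :: Ls) = evL (riv x) ct A + vs x ct Ls := rfl

/-- sum of the bounds. -/
def sE (L : List ((List (ℕ × ℕ) × List (ℕ × ℕ)) × ℕ)) : ℕ := (L.map fun p => p.2).sum

/-- parts can be added: `L` holds (left side, right side), bound. -/
theorem parts {x : Fin 7 → Fin 7 → ℂ} {ct : CT} :
    ∀ L : List ((List (ℕ × ℕ) × List (ℕ × ℕ)) × ℕ),
      (∀ p ∈ L, |evL (riv x) ct p.1.1 - evL (riv x) ct p.1.2| ≤ 5 / 2 * p.2) →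
      |vs x ct (L.map fun p => p.1.1) - vs x ct (L.map fun p => p.1.2)| ≤ 5 / 2 * sE L
  | [], _ => by simp [vs, sE]
  | p :: L, h => by
    have h1 := h p List.mem_cons_self
    have h2 := parts (x := x) (ct := ct) L fun q hq => h q (List.mem_cons_of_mem _ hq)
    have e1 : vs x ct ((p :: L).map fun p => p.1.1)
        = evL (riv x) ct p.1.1 + vs x ct (L.map fun p => p.1.1) := rfl
    have e2 : vs x ct ((p :: L).map fun p => p.1.2)
        = evL (riv x) ct p.1.2 + vs x ct (L.map fun p => p.1.2) := rfl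
    have e3 : ((sE (p :: L) : ℕ) : ℝ) = p.2 + sE L := by
      have : sE (p :: L) = p.2 + sE L := rfl
      rw [this]; push_cast; rfl
    rw [e1, e2, e3]
    have e4 : evL (riv x) ct p.1.1 + vs x ct (L.map fun p => p.1.1)
        - (evL (riv x) ct p.1.2 + vs x ct (L.map fun p => p.1.2))
        = (evL (riv x) ct p.1.1 - evL (riv x) ct p.1.2)
          + (vs x ct (L.map fun p => p.1.1) - vs x ct (L.map fun p => p.1.2)) := by ring
    rw [e4]
    refine (abs_add_le _ _).trans ?_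
    linarith

/-- a multiple of a nonnegative list of terms. -/
theorem scl_nonneg {g : ℕ → ℝ} {ctG : H693.GT} {l : List (ℤ × ℕ)} (k : ℕ)
    (h : 0 ≤ H693.valT g ctG l) : 0 ≤ H693.valT g ctG (H693.sclT (k : ℤ) l) := by
  rw [H693.valT_scl]
  have : (0 : ℝ) ≤ ((k : ℤ) : ℝ) := by push_cast; positivity
  exact mul_nonneg this h

/-- the sum of two nonnegative lists. -/
theorem app_nonneg {g : ℕ → ℝ} {ctG : H693.GT} {l l' : List (ℤ × ℕ)}
    (h : 0 ≤ H693.valT g ctG l) (h' : 0 ≤ H693.valT g ctG l') :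
    0 ≤ H693.valT g ctG (l ++ l') := by
  rw [H693.valT_append]
  exact add_nonneg h h'

end Vale.Agent.P355.H371
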